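import Crest.Prelude.Def_CubicLines
import Crest.Agent.R278.Dim

-- ▼ part X262/Brg/Bir
section

/-!
# Row 262, bridge (helper19): birational affine varieties and their fraction fields

* `fracEquiv_of_birationalOver` : birational domains have isomorphic fraction fields;
* `birationalOver_of_frac`      : finitely generated domains with a common fraction field are
                                  birational;
* `birationalOver_quot`         : an irreducible, generically reduced `Spec A` is birational to its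
                                  reduction;
* `exists_equiv_of_isRationalOver` : the fraction field of a rational domain.
-/

set_option autoImplicit false

open CategoryTheory AlgebraicGeometry
open Crest.AlgGeometry

noncomputable section

namespace Crest.Agent.X262.Brg.Bir

/-- the constants in the function field -/
def cst {X : Scheme.{0}} [IrreducibleSpace X] (s : X ⟶ Spec (CommRingCat.of ℂ)) :
    CommRingCat.of ℂ ⟶ X.functionField :=
  (Scheme.ΓSpecIso (CommRingCat.of ℂ)).inv ≫ s.appTop ≫ X.presheaf.germ ⊤ (genericPoint X) trivial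

/-- isomorphic function fields -/
def FE {X Y : Scheme.{0}} [IrreducibleSpace X] [IrreducibleSpace Y]
    (s : X ⟶ Spec (CommRingCat.of ℂ)) (t : Y ⟶ Spec (CommRingCat.of ℂ)) : Prop :=
  ∃ e : X.functionField ≅ Y.functionField, cst s ≫ e.hom = cst t

theorem FE.symm {X Y : Scheme.{0}} [IrreducibleSpace X] [IrreducibleSpace Y]
    {s : X ⟶ Spec (CommRingCat.of ℂ)} {t : Y ⟶ Spec (CommRingCat.of ℂ)} (h : FE s t) : FE t s := by
  obtain ⟨e, he⟩ := h
  exact ⟨e.symm, by rw [← he]; simp⟩

theorem FE.trans {X Y Z : Scheme.{0}} [IrreducibleSpace X] [IrreducibleSpace Y]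
    [IrreducibleSpace Z] {s : X ⟶ Spec (CommRingCat.of ℂ)} {t : Y ⟶ Spec (CommRingCat.of ℂ)}
    {u : Z ⟶ Spec (CommRingCat.of ℂ)} (h : FE s t) (h' : FE t u) : FE s u := by
  obtain ⟨e, he⟩ := h
  obtain ⟨e', he'⟩ := h'
  exact ⟨e ≪≫ e', by rw [Iso.trans_hom, ← Category.assoc, he, he']⟩

theorem fe_open {X Y : Scheme.{0}} [IrreducibleSpace X] [IrreducibleSpace Y] (f : X ⟶ Y)
    [IsOpenImmersion f] (t : Y ⟶ Spec (CommRingCat.of ℂ)) : FE t (f ≫ t) := by
  have h := genericPoint_eq_of_isOpenImmersion f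
  refine ⟨Y.presheaf.stalkCongr (.of_eq h.symm) ≪≫ asIso (f.stalkMap (genericPoint X)), ?_⟩
  simp only [cst, Iso.trans_hom, asIso_hom, Category.assoc, Scheme.Hom.comp_appTop,
    TopCat.Presheaf.stalkCongr_hom]
  rw [TopCat.Presheaf.germ_stalkSpecializes_assoc, Scheme.Hom.germ_stalkMap]
  rfl

theorem fe_of_bir {X Y : Scheme.{0}} [IsIntegral X] [IsIntegral Y]
    {s : X ⟶ Spec (CommRingCat.of ℂ)} {t : Y ⟶ Spec (CommRingCat.of ℂ)}
    (h : Scheme.BirationalOver s t) : FE s t := by
  obtain ⟨f, hf⟩ := h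
  have : Nonempty f.source := f.dense_source.nonempty.to_subtype
  have : Nonempty f.target := f.dense_target.nonempty.to_subtype
  have h1 := fe_open f.source.ι s
  have h2 := (fe_open f.target.ι t).trans (fe_open f.iso.hom (f.target.ι ≫ t))
  have h3 : f.iso.hom ≫ f.target.ι ≫ t = f.source.ι ≫ s := hf
  rw [h3] at h2
  exact h1.trans h2.symm

instance algFF (A : Type) [CommRing A] [IsDomain A] :
    Algebra A (Spec (CommRingCat.of A)).functionField :=
  instAlgebraCarrierFunctionFieldSpec (CommRingCat.of A)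

instance fracFF (A : Type) [CommRing A] [IsDomain A] :
    IsFractionRing A (Spec (CommRingCat.of A)).functionField :=
  functionField_isFractionRing_of_affine (CommRingCat.of A)

theorem cst_spec (A : Type) [CommRing A] [Algebra ℂ A] [IsDomain A] (c : ℂ) :
    cst (toSpecComplex A) c =
      algebraMap A (Spec (CommRingCat.of A)).functionField (algebraMap ℂ A c) := by
  have h : cst (toSpecComplex A) = CommRingCat.ofHom (algebraMap ℂ A) ≫
      (Scheme.ΓSpecIso (CommRingCat.of A)).inv ≫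
        (Spec (CommRingCat.of A)).presheaf.germ ⊤ (genericPoint _) trivial := by
    rw [cst, toSpecComplex, ← Scheme.ΓSpecIso_inv_naturality_assoc]
  rw [h]
  rfl

theorem fracEquiv_of_birationalOver {A B : Type} [CommRing A] [Algebra ℂ A] [IsDomain A]
    [CommRing B] [Algebra ℂ B] [IsDomain B] (K L : Type) [Field K] [Field L] [Algebra A K]
    [IsFractionRing A K] [Algebra ℂ K] [IsScalarTower ℂ A K] [Algebra B L] [IsFractionRing B L]
    [Algebra ℂ L] [IsScalarTower ℂ B L]
    (h : Scheme.BirationalOver (toSpecComplex A) (toSpecComplex B)) : Nonempty (K ≃ₐ[ℂ] L) := by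
  obtain ⟨e, he⟩ := fe_of_bir h
  let e1 : K ≃ₐ[A] (Spec (CommRingCat.of A)).functionField :=
    IsLocalization.algEquiv (nonZeroDivisors A) _ _
  let e2 : L ≃ₐ[B] (Spec (CommRingCat.of B)).functionField :=
    IsLocalization.algEquiv (nonZeroDivisors B) _ _
  refine ⟨AlgEquiv.ofRingEquiv (f := e1.toRingEquiv.trans
    (e.commRingCatIsoToRingEquiv.trans e2.symm.toRingEquiv)) fun c => ?_⟩
  have h1 : e1 (algebraMap ℂ K c) = cst (toSpecComplex A) c := by
    rw [cst_spec, IsScalarTower.algebraMap_apply ℂ A K, e1.commutes]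
  have h2 : e2 (algebraMap ℂ L c) = cst (toSpecComplex B) c := by
    rw [cst_spec, IsScalarTower.algebraMap_apply ℂ B L, e2.commutes]
  change e2.symm (e.hom (e1 (algebraMap ℂ K c))) = _
  rw [h1, AlgEquiv.symm_apply_eq, h2, ← he]
  rfl

/-- an algebra map which is a localisation away from a nonzero element -/
theorem bir_away {A C : Type} [CommRing A] [Algebra ℂ A] [CommRing C] [Algebra ℂ C] [Algebra A C]
    [IsScalarTower ℂ A C] (a : A) [IsLocalization.Away a C]
    (hd : Dense (PrimeSpectrum.basicOpen a : Set (PrimeSpectrum A))) :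
    Scheme.BirationalOver (toSpecComplex C) (toSpecComplex A) := by
  let f : Spec (CommRingCat.of C) ⟶ Spec (CommRingCat.of A) :=
    Spec.map (CommRingCat.ofHom (algebraMap A C))
  have : IsOpenImmersion f := IsOpenImmersion.of_isLocalization a
  have : IsDominant f := ⟨by
    have h : Set.range f = (PrimeSpectrum.basicOpen a : Set (PrimeSpectrum A)) :=
      PrimeSpectrum.localization_away_comap_range C a
    rw [DenseRange, h]
    exact hd⟩
  refine f.birationalOver _ _ ?_
  rw [toSpecComplex, toSpecComplex, ← Spec.map_comp, ← CommRingCat.ofHom_comp,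
    ← IsScalarTower.algebraMap_eq]

theorem dense_basicOpen {A : Type} [CommRing A] (h : (nilradical A).IsPrime) {a : A}
    (ha : a ∉ nilradical A) : Dense (PrimeSpectrum.basicOpen a : Set (PrimeSpectrum A)) := by
  have : IrreducibleSpace (PrimeSpectrum A) := PrimeSpectrum.irreducibleSpace_iff_isPrime_nilradical.2 h
  exact (PrimeSpectrum.basicOpen a).isOpen.dense ⟨⟨_, h⟩, ha⟩


section frac

variable {K : Type} [Field K] [Algebra ℂ K]

/-- the subalgebra `A[1/a]` -/
def away (A : Subalgebra ℂ K) (a : K) : Subalgebra ℂ K := A ⊔ Algebra.adjoin ℂ {a⁻¹}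

theorem mem_away {A : Subalgebra ℂ K} {a : K} (ha : a ∈ A) (h0 : a ≠ 0) {x : K} :
    x ∈ away A a ↔ ∃ n : ℕ, x * a ^ n ∈ A := by
  constructor
  · intro hx
    let S : Subalgebra ℂ K :=
      { carrier := {x | ∃ n : ℕ, x * a ^ n ∈ A}
        mul_mem' := by
          rintro x y ⟨n, hn⟩ ⟨m, hm⟩
          exact ⟨n + m, by rw [pow_add, mul_mul_mul_comm]; exact A.mul_mem hn hm⟩
        add_mem' := by
          rintro x y ⟨n, hn⟩ ⟨m, hm⟩
          refine ⟨n + m, ?_⟩
          have : (x + y) * a ^ (n + m) = x * a ^ n * a ^ m + y * a ^ m * a ^ n := by ring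
          rw [this]
          exact A.add_mem (A.mul_mem hn (A.pow_mem ha m)) (A.mul_mem hm (A.pow_mem ha n))
        algebraMap_mem' := fun c => ⟨0, by simp⟩ }
    have : away A a ≤ S := sup_le (fun y hy => ⟨0, by simpa using hy⟩)
      (Algebra.adjoin_le (by
        rintro _ rfl
        exact ⟨1, by rw [pow_one, inv_mul_cancel₀ h0]; exact A.one_mem⟩))
    exact this hx
  · rintro ⟨n, hn⟩
    have : x = x * a ^ n * a⁻¹ ^ n := by
      rw [mul_assoc, ← mul_pow, mul_inv_cancel₀ h0, one_pow, mul_one]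
    rw [this]
    exact mul_mem ((le_sup_left : A ≤ away A a) hn) (pow_mem
      ((le_sup_right : _ ≤ away A a) (Algebra.subset_adjoin rfl)) n)

/-- every element of `K` is a fraction of elements of `A` -/
def Fr (A : Subalgebra ℂ K) : Prop := ∀ x : K, ∃ d ∈ A, d ≠ 0 ∧ x * d ∈ A

theorem exists_le_away {A B : Subalgebra ℂ K} (hA : Fr A) (hB : B.FG) :
    ∃ a ∈ A, a ≠ 0 ∧ B ≤ away A a := by
  classical
  obtain ⟨S, rfl⟩ := hB
  choose d hd h0 h1 using hA
  have hm : ∏ x ∈ S, d x ∈ A := A.prod_mem fun x _ => hd x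
  have hn : ∏ x ∈ S, d x ≠ 0 := Finset.prod_ne_zero_iff.2 fun x _ => h0 x
  refine ⟨_, hm, hn, Algebra.adjoin_le fun x hx => (mem_away hm hn).2 ⟨1, ?_⟩⟩
  rw [pow_one, ← Finset.mul_prod_erase S d hx, ← mul_assoc]
  exact A.mul_mem (h1 x) (A.prod_mem fun y _ => hd y)

theorem inv_mem_away {A : Subalgebra ℂ K} {a b c : K} (hc : c ∈ A) (h : a = b * c) (h0 : a ≠ 0) :
    b⁻¹ ∈ away A a := by
  have hc0 : c ≠ 0 := by rintro rfl; simp [h] at h0
  have hb0 : b ≠ 0 := by rintro rfl; simp [h] at h0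
  have : b⁻¹ = c * a⁻¹ := by rw [h]; field_simp
  rw [this]
  exact mul_mem ((le_sup_left : A ≤ away A a) hc)
    ((le_sup_right : _ ≤ away A a) (Algebra.subset_adjoin rfl))

theorem away_le {A C : Subalgebra ℂ K} {a : K} (h : A ≤ C) (ha : a⁻¹ ∈ C) : away A a ≤ C :=
  sup_le h (Algebra.adjoin_le (by rintro _ rfl; exact ha))

theorem exists_away_eq {A B : Subalgebra ℂ K} (hA : Fr A) (hB : Fr B) (fA : A.FG) (fB : B.FG) :
    ∃ a ∈ A, ∃ b ∈ B, a ≠ 0 ∧ b ≠ 0 ∧ away A a = away B b := by
  obtain ⟨a, ha, ha0, h1⟩ := exists_le_away hA fB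
  obtain ⟨b, hb, hb0, h2⟩ := exists_le_away hB fA
  obtain ⟨n, hn⟩ := (mem_away ha ha0).1 (h1 hb)
  obtain ⟨m, hm⟩ := (mem_away hb hb0).1 (h2 ha)
  have key : ∀ {A B : Subalgebra ℂ K} {a b : K} {n m : ℕ}, a ∈ A → b ∈ B → a ≠ 0 → b ≠ 0 →
      B ≤ away A a → b * a ^ n ∈ A → away B (a * b ^ m * b) ≤ away A (b * a ^ n * a) := by
    intro A B a b n m ha hb ha0 hb0 h1 hn
    have h0 : b * a ^ n * a ≠ 0 := by positivity
    have i1 : a⁻¹ ∈ away A (b * a ^ n * a) := inv_mem_away hn (mul_comm _ _) h0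
    have i2 : b⁻¹ ∈ away A (b * a ^ n * a) :=
      inv_mem_away (A.mul_mem (A.pow_mem ha n) ha) (mul_assoc _ _ _) h0
    refine away_le (h1.trans (away_le le_sup_left i1)) ?_
    rw [mul_inv, mul_inv, ← inv_pow]
    exact mul_mem (mul_mem i1 (pow_mem i2 m)) i2
  exact ⟨_, A.mul_mem hn ha, _, B.mul_mem hm hb, by positivity, by positivity,
    le_antisymm (key hb ha hb0 ha0 h2 hm) (key ha hb ha0 hb0 h1 hn)⟩

/-- a map onto a subalgebra whose kernel is killed by `s` and nil -/
theorem bir_sub {A : Type} [CommRing A] [Algebra ℂ A] (φ : A →ₐ[ℂ] K)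
    (hn : ∀ x, φ x = 0 → IsNilpotent x) {s : A} (hs : φ s ≠ 0) (hk : ∀ x, φ x = 0 → s * x = 0)
    {a : K} (ha : a ∈ φ.range) (h0 : a ≠ 0) (hsa : (φ s)⁻¹ ∈ away φ.range a) :
    Scheme.BirationalOver (toSpecComplex (away φ.range a)) (toSpecComplex A) := by
  obtain ⟨a', rfl⟩ := ha
  have ha : φ a' ∈ φ.range := ⟨a', rfl⟩
  change φ a' ≠ 0 at h0
  change (φ s)⁻¹ ∈ away φ.range (φ a') at hsa
  change Scheme.BirationalOver (toSpecComplex (away φ.range (φ a'))) _
  let ψ : A →ₐ[ℂ] away φ.range (φ a') :=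
    φ.codRestrict _ fun x => (le_sup_left : φ.range ≤ away φ.range (φ a')) ⟨x, rfl⟩
  let _ : Algebra A (away φ.range (φ a')) := ψ.toRingHom.toAlgebra
  have : IsScalarTower ℂ A (away φ.range (φ a')) :=
    IsScalarTower.of_algebraMap_eq fun c => (ψ.commutes c).symm
  have hψ : ∀ x, ((algebraMap A (away φ.range (φ a')) x : away φ.range (φ a')) : K) = φ x :=
    fun _ => rfl
  have : IsLocalization.Away (a' * s) (away φ.range (φ a')) := by
    refine IsLocalization.Away.mk _ ?_ ?_ ?_
    · refine isUnit_iff_exists_inv.2 ⟨⟨(φ a')⁻¹ * (φ s)⁻¹, mul_mem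
        ((le_sup_right : _ ≤ away φ.range (φ a')) (Algebra.subset_adjoin rfl)) hsa⟩, ?_⟩
      apply Subtype.ext
      rw [Subalgebra.coe_mul, hψ, map_mul]
      change _ = (1 : K)
      field_simp
    · intro z
      obtain ⟨n, y, hy⟩ := (mem_away ha h0).1 z.2
      refine ⟨n, y * s ^ n, Subtype.ext ?_⟩
      change φ y = _ at hy
      rw [Subalgebra.coe_mul, Subalgebra.coe_pow, hψ, hψ, map_mul, map_mul, map_pow, hy]
      ring
    · intro x y hxy
      have h1 : φ (x - y) = 0 := by
        rw [map_sub, sub_eq_zero]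
        exact congrArg Subtype.val hxy
      refine ⟨1, ?_⟩
      rw [← sub_eq_zero, pow_one, ← mul_sub, mul_assoc, hk _ h1, mul_zero]
  have hker : nilradical A = RingHom.ker φ := by
    ext x
    rw [mem_nilradical, RingHom.mem_ker]
    exact ⟨fun h => (h.map φ).eq_zero, hn x⟩
  refine bir_away (a' * s) (dense_basicOpen ?_ ?_)
  · rw [hker]
    exact RingHom.ker_isPrime φ
  · rw [hker, RingHom.mem_ker, map_mul]
    exact mul_ne_zero h0 hs

/-- `A` is irreducible and generically reduced with function field `K` -/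
structure Gen {A : Type} [CommRing A] [Algebra ℂ A] (φ : A →ₐ[ℂ] K) : Prop where
  nil : ∀ x, φ x = 0 → IsNilpotent x
  red : ∃ s, φ s ≠ 0 ∧ ∀ x, φ x = 0 → s * x = 0
  fr : ∀ x : K, ∃ d y, φ d ≠ 0 ∧ x * φ d = φ y

theorem Gen.of_inj {A : Type} [CommRing A] [Algebra ℂ A] {φ : A →ₐ[ℂ] K}
    (h : Function.Injective φ) (fr : ∀ x : K, ∃ d y, φ d ≠ 0 ∧ x * φ d = φ y) : Gen φ :=
  ⟨fun x hx => by rw [(map_eq_zero_iff φ h).1 hx]; exact IsNilpotent.zero,
    ⟨1, by simp, fun x hx => by rw [(map_eq_zero_iff φ h).1 hx, mul_zero]⟩, fr⟩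


theorem Gen.equiv {A : Type} [CommRing A] [Algebra ℂ A] {φ : A →ₐ[ℂ] K} (h : Gen φ) {L : Type}
    [Field L] [Algebra ℂ L] (e : K ≃ₐ[ℂ] L) : Gen (e.toAlgHom.comp φ) := by
  have h0 : ∀ x, (e.toAlgHom.comp φ) x = 0 ↔ φ x = 0 := fun x => e.map_eq_zero_iff
  obtain ⟨s, h1, h2⟩ := h.red
  refine ⟨fun x hx => h.nil x ((h0 x).1 hx), ⟨s, fun hs => h1 ((h0 s).1 hs),
    fun x hx => h2 x ((h0 x).1 hx)⟩, fun x => ?_⟩
  obtain ⟨d, y, h3, h4⟩ := h.fr (e.symm x)
  refine ⟨d, y, fun hd => h3 ((h0 d).1 hd), ?_⟩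
  change x * e (φ d) = e (φ y)
  rw [← h4, map_mul, e.apply_symm_apply]

theorem Gen.fr_range {A : Type} [CommRing A] [Algebra ℂ A] {φ : A →ₐ[ℂ] K} (h : Gen φ) :
    Fr φ.range := fun x =>
  let ⟨d, y, h1, h2⟩ := h.fr x
  ⟨φ d, ⟨d, rfl⟩, h1, ⟨y, h2.symm⟩⟩

theorem fg_range {A : Type} [CommRing A] [Algebra ℂ A] [Algebra.FiniteType ℂ A] (φ : A →ₐ[ℂ] K) :
    φ.range.FG := by
  rw [← Algebra.map_top]
  exact Algebra.FiniteType.out.map φ

theorem fg_away {A : Subalgebra ℂ K} (h : A.FG) (a : K) : (away A a).FG := by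
  classical
  obtain ⟨S, rfl⟩ := h
  exact ⟨insert a⁻¹ S, by
    rw [away, Finset.coe_insert, Set.insert_eq, Algebra.adjoin_union, sup_comm]⟩

theorem away_away {A : Subalgebra ℂ K} {a b : K} (ha : a ∈ A) (h0 : a ≠ 0) (hb : b ∈ away A a)
    (hb0 : b ≠ 0) : ∃ c ∈ A, c ≠ 0 ∧ away (away A a) b = away A c := by
  obtain ⟨n, hn⟩ := (mem_away ha h0).1 hb
  have hc : b * a ^ n * a ≠ 0 := by positivity
  have i1 : a⁻¹ ∈ away A (b * a ^ n * a) := inv_mem_away hn (mul_comm _ _) hc
  have i2 : b⁻¹ ∈ away A (b * a ^ n * a) :=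
    inv_mem_away (A.mul_mem (A.pow_mem ha n) ha) (mul_assoc _ _ _) hc
  refine ⟨_, A.mul_mem hn ha, hc, le_antisymm (away_le (away_le le_sup_left i1) i2) ?_⟩
  have j1 : a⁻¹ ∈ away (away A a) b := (le_sup_left : _ ≤ away (away A a) b)
    ((le_sup_right : _ ≤ away A a) (Algebra.subset_adjoin rfl))
  have j2 : b⁻¹ ∈ away (away A a) b :=
    (le_sup_right : _ ≤ away (away A a) b) (Algebra.subset_adjoin rfl)
  refine away_le (le_sup_left.trans le_sup_left) ?_
  rw [mul_inv, mul_inv, ← inv_pow]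
  exact mul_mem (mul_mem j2 (pow_mem j1 n)) j1

/-- **birational from a common function field** -/
theorem birationalOver_of_gen {A B : Type} [CommRing A] [Algebra ℂ A] [Algebra.FiniteType ℂ A]
    [CommRing B] [Algebra ℂ B] [Algebra.FiniteType ℂ B] {φ : A →ₐ[ℂ] K} {ψ : B →ₐ[ℂ] K}
    (hφ : Gen φ) (hψ : Gen ψ) : Scheme.BirationalOver (toSpecComplex A) (toSpecComplex B) := by
  obtain ⟨s, hs, hs'⟩ := hφ.red
  obtain ⟨t, ht, ht'⟩ := hψ.red
  have fr : ∀ {C : Subalgebra ℂ K} (a : K), Fr C → Fr (away C a) := fun {C} a h x =>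
    let ⟨d, h1, h2, h3⟩ := h x
    ⟨d, (le_sup_left : C ≤ away C a) h1, h2, (le_sup_left : C ≤ away C a) h3⟩
  obtain ⟨a, ha, b, hb, ha0, hb0, h⟩ := exists_away_eq (fr (φ s) hφ.fr_range)
    (fr (ψ t) hψ.fr_range) (fg_away (fg_range φ) _) (fg_away (fg_range ψ) _)
  obtain ⟨c, hc, hc0, h1⟩ := away_away (A := φ.range) ⟨s, rfl⟩ hs ha ha0
  obtain ⟨d, hd, hd0, h2⟩ := away_away (A := ψ.range) ⟨t, rfl⟩ ht hb hb0
  have b1 := bir_sub φ hφ.nil hs hs' hc hc0 (h1 ▸ (le_sup_left : _ ≤ away _ a)
    ((le_sup_right : _ ≤ away φ.range (φ s)) (Algebra.subset_adjoin rfl)))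
  have b2 := bir_sub ψ hψ.nil ht ht' hd hd0 (h2 ▸ (le_sup_left : _ ≤ away _ b)
    ((le_sup_right : _ ≤ away ψ.range (ψ t)) (Algebra.subset_adjoin rfl)))
  have h3 : away φ.range c = away ψ.range d := by rw [← h1, ← h2]; exact h
  rw [h3] at b1
  exact b1.symm.trans b2

end frac

/-- the fraction field of a rational domain is purely transcendental -/
theorem exists_equiv_of_isRationalOver {A : Type} [CommRing A] [Algebra ℂ A] [IsDomain A]
    (K : Type) [Field K] [Algebra A K] [IsFractionRing A K] [Algebra ℂ K] [IsScalarTower ℂ A K]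
    (h : Scheme.IsRationalOver (toSpecComplex A)) :
    ∃ n : Type, Nonempty (K ≃ₐ[ℂ] FractionRing (MvPolynomial n ℂ)) := by
  obtain ⟨n, hn⟩ := h.exists_birationalOver_affineSpace
  refine ⟨n, fracEquiv_of_birationalOver (A := A) (B := MvPolynomial n ℂ) K _ (hn.trans ?_)⟩
  exact ((AffineSpace.SpecIso n (CommRingCat.of ℂ)).inv.birationalOver _ _
    (AffineSpace.SpecIso_inv_over (n := n) (CommRingCat.of ℂ))).symm

end Crest.Agent.X262.Brg.Bir
end
end

-- ▼ part X262/Brg/Cubic

/-!
# Row 262, bridge (helper19): the affine chart of a smooth cubic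

* `dim_trdeg`          : Krull dimension = transcendence degree for f.g. domains;
* `exists_common_zero` : fewer than `n` polynomials in `n` variables vanishing at `p` have another
                         common zero;
* `prime_dehom`        : the dehomogenisation of a smooth form is prime;
* `chart_isDomain`, `chart_trdeg`, `equiv_of_rational`.
-/

set_option autoImplicit false

open MvPolynomial AlgebraicGeometry
open Crest.AlgGeometry

noncomputable section

namespace Crest.Agent.X262.Brg.Cubic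

/-- Krull dimension = transcendence degree -/
theorem dim_trdeg (k C : Type) [Field k] [CommRing C] [IsDomain C] [Algebra k C]
    [Algebra.FiniteType k C] : ∃ d : ℕ, ringKrullDim C = d ∧ Algebra.trdeg k C = d := by
  obtain ⟨s, g, hg, hint⟩ := exists_integral_inj_algHom_of_fg k C
  let _ : Algebra (MvPolynomial (Fin s) k) C := g.toRingHom.toAlgebra
  have : IsScalarTower k (MvPolynomial (Fin s) k) C := IsScalarTower.of_algebraMap_eq
    (fun c => (g.commutes c).symm)
  have : Algebra.IsIntegral (MvPolynomial (Fin s) k) C := ⟨hint⟩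
  have : FaithfulSMul (MvPolynomial (Fin s) k) C :=
    (faithfulSMul_iff_algebraMap_injective _ _).2 hg
  have h1 : ringKrullDim C = ringKrullDim (MvPolynomial (Fin s) k) :=
    R278.ringKrullDim_eq_of_isIntegral hg
  rw [MvPolynomial.ringKrullDim_of_isNoetherianRing, ringKrullDim_eq_zero_of_field, zero_add,
    Nat.card_eq_fintype_card, Fintype.card_fin] at h1
  have halg : Algebra.IsAlgebraic (MvPolynomial (Fin s) k) C := inferInstance
  have h3 := trdeg_add_eq k (MvPolynomial (Fin s) k) (A := C)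
  rw [trdeg_eq_zero_iff.2 halg, add_zero, MvPolynomial.trdeg_of_isDomain] at h3
  exact ⟨s, h1, by rw [← h3]; simp⟩

theorem trdeg_frac (k A K : Type) [Field k] [CommRing A] [IsDomain A] [Algebra k A] [Field K]
    [Algebra A K] [IsFractionRing A K] [Algebra k K] [IsScalarTower k A K] :
    Algebra.trdeg k K = Algebra.trdeg k A := by
  have halg : Algebra.IsAlgebraic A K := IsLocalization.isAlgebraic K (nonZeroDivisors A)
  have h3 := trdeg_add_eq k A (A := K)
  rw [trdeg_eq_zero_iff.2 halg, add_zero] at h3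
  exact h3.symm

variable {k : Type} [Field k] {n : ℕ}

theorem le_height_point (p : Fin n → k) :
    (n : ℕ∞) ≤ (vanishingIdeal k ({p} : Set (Fin n → k))).height := by
  let P : ℕ → Ideal (MvPolynomial (Fin n) k) := fun j => RingHom.ker
    (aeval (fun i : Fin n => if (i : ℕ) < j then C (p i) else X i) :
      MvPolynomial (Fin n) k →ₐ[k] MvPolynomial (Fin n) k)
  have hP : ∀ j, (P j).IsPrime := fun j => RingHom.ker_isPrime _
  have hle : ∀ j, P j ≤ P (j + 1) := fun j f hf => by
    have h : (aeval (fun i : Fin n => if (i : ℕ) < j + 1 then C (p i) else X i) :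
        MvPolynomial (Fin n) k →ₐ[k] MvPolynomial (Fin n) k) =
        (aeval (fun i : Fin n => if (i : ℕ) < j + 1 then C (p i) else X i)).comp
          (aeval (fun i : Fin n => if (i : ℕ) < j then C (p i) else X i)) := by
      ext1 i
      by_cases hi : (i : ℕ) < j
      · simp [hi, hi.le]
      · simp [hi]
    change aeval _ f = 0 at hf ⊢
    rw [h, AlgHom.comp_apply, hf, map_zero]
  have key : ∀ j ≤ n, (j : ℕ∞) ≤ (P j).height := by
    intro j
    induction j with
    | zero => simp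
    | succ j ih =>
      intro hj
      have := hP j
      have := hP (j + 1)
      refine le_trans ?_ (Ideal.height_add_one_le_of_lt_of_isPrime (I := P j) ((hle j).lt_of_ne ?_))
      · push_cast
        gcongr
        exact ih (by omega)
      · intro h
        have h1 : (X ⟨j, hj⟩ - C (p ⟨j, hj⟩) : MvPolynomial (Fin n) k) ∈ P (j + 1) := by
          change aeval _ _ = 0
          simp
        rw [← h] at h1
        change aeval _ _ = 0 at h1
        simp only [map_sub, aeval_X, lt_self_iff_false, if_false, algHom_C, algebraMap_eq,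
          sub_eq_zero] at h1
        have h2 := congrArg (eval fun i => p i + 1) h1
        simp at h2
  refine (key n le_rfl).trans (Ideal.height_mono fun f hf => ?_)
  rw [mem_vanishingIdeal_singleton_iff]
  have h : (aeval p : MvPolynomial (Fin n) k →ₐ[k] k) = (aeval p).comp
      (aeval (fun i : Fin n => if (i : ℕ) < n then C (p i) else X i)) := by
    ext1 i
    simp
  change aeval _ f = 0 at hf
  rw [h, AlgHom.comp_apply, hf, map_zero]

/-- fewer than `n` equations never cut out an isolated single point -/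
theorem exists_common_zero [IsAlgClosed k] (s : Finset (MvPolynomial (Fin n) k)) (hs : s.card < n)
    (p : Fin n → k) (hp : ∀ g ∈ s, eval p g = 0) : ∃ q, q ≠ p ∧ ∀ g ∈ s, eval q g = 0 := by
  by_contra! h
  have h1 : zeroLocus k (Ideal.span (s : Set (MvPolynomial (Fin n) k))) = {p} := by
    rw [zeroLocus_span]
    ext q
    refine ⟨fun hq => ?_, ?_⟩
    · by_contra hne
      obtain ⟨g, hg, h0⟩ := h q hne
      exact h0 (hq g hg)
    · rintro rfl
      exact hp
  have h2 := vanishingIdeal_zeroLocus_eq_radical (K := k)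
    (Ideal.span (s : Set (MvPolynomial (Fin n) k)))
  rw [h1] at h2
  have h3 : vanishingIdeal k ({p} : Set (Fin n → k)) ∈
      (Ideal.span (s : Set (MvPolynomial (Fin n) k))).minimalPrimes := by
    rw [← Ideal.radical_minimalPrimes, ← h2, Ideal.minimalPrimes_eq_subsingleton_self]
    rfl
  have h4 := (le_height_point p).trans (Ideal.height_le_card_of_mem_minimalPrimes_span_finset h3)
  exact hs.not_ge (by exact_mod_cast h4)

/-- dehomogenisation `x₀ = 1` -/
def deh : MvPolynomial (Fin (n + 1)) k →ₐ[k] MvPolynomial (Fin n) k := aeval (Fin.cons 1 X)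

/-- homogenisation in degree `a` -/
def hom (a : ℕ) (g : MvPolynomial (Fin n) k) : MvPolynomial (Fin (n + 1)) k :=
  ∑ i ∈ Finset.range (a + 1), X 0 ^ (a - i) * rename Fin.succ (homogeneousComponent i g)

theorem hom_isHomogeneous (a : ℕ) (g : MvPolynomial (Fin n) k) : (hom a g).IsHomogeneous a := by
  refine IsHomogeneous.sum _ _ _ fun i hi => ?_
  have h := (isHomogeneous_X_pow (R := k) (0 : Fin (n + 1)) (a - i)).mul
    ((homogeneousComponent_isHomogeneous i g).rename_isHomogeneous (f := Fin.succ))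
  rwa [Nat.sub_add_cancel (Nat.lt_succ_iff.1 (Finset.mem_range.1 hi))] at h

theorem deh_rename (g : MvPolynomial (Fin n) k) : deh (rename Fin.succ g) = g := by
  rw [deh, aeval_rename]
  exact aeval_X_left_apply g

theorem deh_X0 : deh (X 0 : MvPolynomial (Fin (n + 1)) k) = 1 := by simp [deh]

theorem deh_hom {a : ℕ} {g : MvPolynomial (Fin n) k} (h : g.totalDegree ≤ a) :
    deh (hom a g) = g := by
  simp only [hom, map_sum, map_mul, map_pow, deh_X0, one_pow, one_mul, deh_rename]
  conv_rhs => rw [← sum_homogeneousComponent g]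
  refine (Finset.sum_subset (Finset.range_subset_range.2 (by omega)) fun i _ hi => ?_).symm
  exact homogeneousComponent_eq_zero _ _ (by simpa using hi)

theorem eval_smul {σ : Type} {F : MvPolynomial σ k} {d : ℕ} (hF : F.IsHomogeneous d) (c : k)
    (x : σ → k) : eval (c • x) F = c ^ d * eval x F := by
  rw [eval_eq, eval_eq, Finset.mul_sum]
  refine Finset.sum_congr rfl fun m hm => ?_
  simp only [Pi.smul_apply, smul_eq_mul, mul_pow, Finset.prod_mul_distrib,
    Finset.prod_pow_eq_pow_sum]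
  rw [← hF.degree_eq_sum_deg_support hm]
  ring

theorem eval_deh (F : MvPolynomial (Fin (n + 1)) k) (y : Fin n → k) :
    eval y (deh F) = eval (Fin.cons 1 y : Fin (n + 1) → k) F := by
  have h : (aeval y).comp (deh (k := k) (n := n)) = aeval (Fin.cons 1 y : Fin (n + 1) → k) := by
    ext1 i
    refine Fin.cases ?_ (fun i => ?_) i <;> simp [deh]
  exact DFunLike.congr_fun h F

theorem eq_of_deh [Infinite k] {F G : MvPolynomial (Fin (n + 1)) k} {d : ℕ}
    (hF : F.IsHomogeneous d) (hG : G.IsHomogeneous d) (h : deh F = deh G) : F = G := by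
  refine mul_left_cancel₀ (X_ne_zero (0 : Fin (n + 1))) (MvPolynomial.funext fun x => ?_)
  by_cases h0 : x 0 = 0
  · simp [h0]
  · have hx : x = x 0 • (Fin.cons 1 fun i => x i.succ / x 0 : Fin (n + 1) → k) := by
      funext i
      refine Fin.cases ?_ (fun i => ?_) i
      · simp
      · simp [mul_div_cancel₀ _ h0]
    rw [map_mul, map_mul, hx, eval_smul hF, eval_smul hG, ← eval_deh F, ← eval_deh G, h]

theorem totalDegree_deh (F : MvPolynomial (Fin (n + 1)) k) :
    (deh F).totalDegree ≤ F.totalDegree := by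
  rw [deh, aeval_def, eval₂_eq]
  refine totalDegree_finsetSum_le fun m hm => ?_
  rw [algebraMap_eq]
  refine (totalDegree_mul _ _).trans ?_
  rw [totalDegree_C, zero_add]
  refine (totalDegree_finsetProd _ _).trans (le_trans ?_ (le_totalDegree hm))
  refine Finset.sum_le_sum fun i _ => (totalDegree_pow _ _).trans ?_
  refine Fin.cases ?_ (fun i => ?_) i <;> simp

/-- smoothness of the projective hypersurface `F = 0` -/
def Sm {σ : Type} (F : MvPolynomial σ k) : Prop :=
  ∀ p : σ → k, p ≠ 0 → eval p F = 0 → ∃ i, eval p (pderiv i F) ≠ 0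

theorem Sm.not_mul [IsAlgClosed k] (hn : 2 < n) {G H : MvPolynomial (Fin n) k} {a b : ℕ}
    (hG : G.IsHomogeneous a) (hH : H.IsHomogeneous b) (ha : a ≠ 0) (hb : b ≠ 0) : ¬ Sm (G * H) := by
  classical
  intro h
  have e0 : ∀ {G : MvPolynomial (Fin n) k} {a : ℕ}, G.IsHomogeneous a → a ≠ 0 →
      eval (0 : Fin n → k) G = 0 := fun {G a} hG ha => by
    simpa [ha] using eval_smul hG 0 0
  obtain ⟨q, hq, h1⟩ := exists_common_zero {G, H} (Finset.card_le_two.trans_lt hn) 0 (by
    simp only [Finset.mem_insert, Finset.mem_singleton, forall_eq_or_imp, forall_eq]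
    exact ⟨e0 hG ha, e0 hH hb⟩)
  have h2 := h1 G (by simp)
  have h3 := h1 H (by simp)
  obtain ⟨i, hi⟩ := h q hq (by rw [map_mul, h2, zero_mul])
  apply hi
  simp [h2, h3]

/-- the dehomogenisation of a smooth form of degree `≥ 2` in `≥ 3` variables is prime -/
theorem prime_deh [IsAlgClosed k] (hn : 2 ≤ n) {F : MvPolynomial (Fin (n + 1)) k} {d : ℕ}
    (hd : 2 ≤ d) (hF : F.IsHomogeneous d) (hs : Sm F) : Prime (deh F) := by
  have key : ∀ (a b : ℕ) (g h : MvPolynomial (Fin n) k), a + b = d → a ≠ 0 → b ≠ 0 →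
      g.totalDegree ≤ a → h.totalDegree ≤ b → deh F ≠ g * h := by
    intro a b g h hab ha hb hg hh he
    have h1 : F = hom a g * hom b h := eq_of_deh hF
      (hab ▸ (hom_isHomogeneous a g).mul (hom_isHomogeneous b h))
      (by rw [map_mul, deh_hom hg, deh_hom hh, he])
    exact Sm.not_mul (by omega) (hom_isHomogeneous a g) (hom_isHomogeneous b h) ha hb (h1 ▸ hs)
  have hdeg := (totalDegree_deh F).trans hF.totalDegree_le
  have h0 : (deh F).totalDegree ≠ 0 := fun h =>
    key 1 (d - 1) 1 (deh F) (by omega) one_ne_zero (by omega) (by simp) (by omega) (one_mul _).symm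
  refine Irreducible.prime ⟨fun hu => h0 (isUnit_iff_totalDegree_of_isReduced.1 hu).2, ?_⟩
  intro g h he
  by_contra! hc
  have hg : g ≠ 0 := by rintro rfl; simp [he] at h0
  have hh : h ≠ 0 := by rintro rfl; simp [he] at h0
  have nz : ∀ {g : MvPolynomial (Fin n) k}, g ≠ 0 → ¬ IsUnit g → g.totalDegree ≠ 0 := by
    intro g hg hu h
    rw [totalDegree_eq_zero_iff_eq_C] at h
    rw [h] at hg hu
    exact hu ((Ne.isUnit fun h => hg (by rw [h, C_0])).map C)
  have h1 := totalDegree_mul_of_isDomain hg hh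
  have h2 := nz hg hc.1
  have h3 := nz hh hc.2
  rw [← he] at h1
  exact key g.totalDegree (d - g.totalDegree) g h (by omega) h2 (by omega) le_rfl (by omega) he

/-- a hypersurface has dimension `n - 1` -/
theorem trdeg_quot [IsAlgClosed k] {f : MvPolynomial (Fin (n + 1)) k} (hf : Prime f) :
    Algebra.trdeg k (MvPolynomial (Fin (n + 1)) k ⧸ Ideal.span {f}) = n := by
  have : (Ideal.span {f}).IsPrime := (Ideal.span_singleton_prime hf.ne_zero).2 hf
  obtain ⟨d, h1, h2⟩ := dim_trdeg k (MvPolynomial (Fin (n + 1)) k ⧸ Ideal.span {f})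
  obtain ⟨M, hM, hle⟩ := Ideal.exists_le_maximal _ this.ne_top
  obtain ⟨p, rfl⟩ := isMaximal_iff_eq_vanishingIdeal_singleton.1 hM
  have h3 := Ideal.height_le_ringKrullDim_quotient_add_one (hle (Ideal.mem_span_singleton_self f))
  have h4 := ringKrullDim_quotient_succ_le_of_nonZeroDivisor
    (mem_nonZeroDivisors_of_ne_zero hf.ne_zero)
  have h5 : ((n + 1 : ℕ) : WithBot ℕ∞) ≤ (vanishingIdeal k ({p} : Set (Fin (n + 1) → k))).height := by
    exact_mod_cast le_height_point p
  rw [MvPolynomial.ringKrullDim_of_isNoetherianRing, ringKrullDim_eq_zero_of_field, zero_add,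
    Nat.card_eq_fintype_card, Fintype.card_fin, h1] at h4
  rw [h1] at h3
  have h6 : n + 1 ≤ d + 1 := by exact_mod_cast h5.trans h3
  have h7 : d + 1 ≤ n + 1 := by exact_mod_cast h4
  rw [h2, show d = n by omega]

theorem chart_eq (F : MvPolynomial (Fin 6) ℂ) :
    aeval (![1, X 0, X 1, X 2, X 3, X 4] : Fin 6 → MvPolynomial (Fin 5) ℂ) F = deh F := by
  rw [deh]
  congr 2
  funext i
  fin_cases i <;> rfl

variable {F : MvPolynomial (Fin 6) ℂ}

theorem chart_isDomain (hF : F.IsHomogeneous 3) (hs : Sm F) : IsDomain (cubicAffineChart F) := by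
  have h := prime_deh (n := 5) (by norm_num) (by norm_num) hF hs
  rw [← chart_eq] at h
  exact (Ideal.Quotient.isDomain_iff_prime _).2 ((Ideal.span_singleton_prime h.ne_zero).2 h)

theorem chart_trdeg (hF : F.IsHomogeneous 3) (hs : Sm F) :
    Algebra.trdeg ℂ (cubicAffineChart F) = 4 := by
  have h := prime_deh (n := 5) (by norm_num) (by norm_num) hF hs
  rw [← chart_eq] at h
  exact trdeg_quot (n := 4) h

/-- a rational domain of transcendence degree `d` has function field `ℂ(x₁, …, x_d)` -/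
theorem equiv_of_rational' {A : Type} [CommRing A] [Algebra ℂ A] [IsDomain A]
    (K : Type) [Field K] [Algebra A K] [IsFractionRing A K] [Algebra ℂ K] [IsScalarTower ℂ A K]
    {d : ℕ} (hd : Algebra.trdeg ℂ A = d) (h : Scheme.IsRationalOver (toSpecComplex A)) :
    Nonempty (K ≃ₐ[ℂ] FractionRing (MvPolynomial (Fin d) ℂ)) := by
  obtain ⟨σ, ⟨e⟩⟩ := Bir.exists_equiv_of_isRationalOver K h
  have h1 := e.trdeg_eq
  rw [trdeg_frac ℂ A K, trdeg_frac ℂ (MvPolynomial σ ℂ), MvPolynomial.trdeg_of_isDomain, hd,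
    Cardinal.lift_id] at h1
  obtain ⟨u⟩ : Nonempty (σ ≃ Fin d) := Cardinal.eq.1 (by rw [← h1]; simp)
  exact ⟨e.trans (IsFractionRing.algEquivOfAlgEquiv (renameEquiv ℂ u))⟩

/-- **a rational smooth cubic fourfold has function field `ℂ(x₁, …, x₄)`** -/
theorem equiv_of_rational (hF : F.IsHomogeneous 3) (hs : Sm F) (K : Type) [Field K]
    [Algebra (cubicAffineChart F) K] [IsFractionRing (cubicAffineChart F) K] [Algebra ℂ K]
    [IsScalarTower ℂ (cubicAffineChart F) K]
    (h : Scheme.IsRationalOver (toSpecComplex (cubicAffineChart F))) :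
    Nonempty (K ≃ₐ[ℂ] FractionRing (MvPolynomial (Fin 4) ℂ)) :=
  have := chart_isDomain hF hs
  equiv_of_rational' K (d := 4) (chart_trdeg hF hs) h

end Crest.Agent.X262.Brg.Cubic
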