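import Mathlib

/-!
# Row 262, bridge (helper19): the Jacobian criterion

* `smooth_of_jac`    : a right inverse of the Jacobian matrix gives smoothness;
* `smooth_of_points` : full rank of the Jacobian matrix at every point gives smoothness;
* `isReduced_of_smooth` : a smooth algebra over a field is reduced.
-/

set_option autoImplicit false

open MvPolynomial
open scoped TensorProduct

noncomputable section

namespace Crest.Agent.X262.Brg.Jac

theorem taylor {k B σ : Type} [CommRing k] [CommRing B] [Algebra k B] [Fintype σ] (I : Ideal B)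
    (b δ : σ → B) (hδ : ∀ s, δ s ∈ I) (q : MvPolynomial σ k) :
    aeval (b + δ) q - aeval b q - ∑ s, aeval b (pderiv s q) * δ s ∈ I ^ 2 := by
  classical
  induction q using MvPolynomial.induction_on with
  | C c => simp
  | add p q hp hq =>
    have := add_mem hp hq
    simp only [map_add, add_mul, Finset.sum_add_distrib]
    convert this using 1
    ring
  | mul_X p i hp =>
    have h : ∀ s, aeval b (pderiv s (p * X i)) * δ s =
        b i * (aeval b (pderiv s p) * δ s) + if s = i then aeval b p * δ i else 0 := by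
      intro s
      rw [Derivation.leibniz, pderiv_X]
      by_cases hs : s = i
      · subst hs
        simp
        ring
      · simp [hs, Ne.symm hs]
        ring
    have h2 : (∑ s, aeval b (pderiv s p) * δ s) * δ i ∈ I ^ 2 := by
      rw [pow_two]
      exact Ideal.mul_mem_mul (Ideal.sum_mem _ fun s _ => I.mul_mem_left _ (hδ s)) (hδ i)
    have h3 := add_mem (Ideal.mul_mem_right (b i + δ i) _ hp) h2
    rw [Finset.sum_congr rfl fun s _ => h s, Finset.sum_add_distrib, ← Finset.mul_sum]
    simp only [map_mul, aeval_X, Pi.add_apply, Finset.sum_ite_eq', Finset.mem_univ, if_true]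
    convert h3 using 1
    ring

variable {S σ ι : Type} [CommRing S] [Fintype σ] [Fintype ι] [DecidableEq ι]

/-- **Jacobian criterion** -/
theorem smooth_of_jac {k : Type} [CommRing k] [Algebra k S] (π : MvPolynomial σ k →ₐ[k] S)
    (hπ : Function.Surjective π) (f : ι → MvPolynomial σ k)
    (hf : RingHom.ker π = Ideal.span (Set.range f)) (M : Matrix σ ι S)
    (hM : (Matrix.of fun i s => π (pderiv s (f i))) * M = 1) : Algebra.Smooth k S := by
  have : Algebra.FinitePresentation k S :=
    .of_surjective hπ (by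
      change (RingHom.ker π).FG
      rw [hf]
      exact Submodule.fg_span (Set.finite_range f))
  refine ⟨?_, inferInstance⟩
  choose M' hM' using fun s i => hπ (M s i)
  set I : Ideal (MvPolynomial σ k) := RingHom.ker π.toRingHom with hI
  have hfI : ∀ i, f i ∈ I := fun i => by
    change f i ∈ RingHom.ker π
    rw [hf]
    exact Ideal.subset_span ⟨i, rfl⟩
  let δ : σ → MvPolynomial σ k := fun s => -∑ j, M' s j * f j
  have hδ : ∀ s, δ s ∈ I := fun s => neg_mem (Ideal.sum_mem _ fun j _ => I.mul_mem_left _ (hfI j))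
  let G : MvPolynomial σ k →ₐ[k] MvPolynomial σ k ⧸ I ^ 2 :=
    (Ideal.Quotient.mkₐ k (I ^ 2)).comp (aeval (X + δ))
  have hG : ∀ q ∈ RingHom.ker π, G q = 0 := by
    intro q hq
    rw [hf] at hq
    refine (Ideal.span_le (I := RingHom.ker G)).2 ?_ hq
    rintro _ ⟨i, rfl⟩
    refine Ideal.Quotient.eq_zero_iff_mem.2 ?_
    have h1 := taylor I X δ hδ (f i)
    simp only [aeval_X_left_apply] at h1
    have h2 : f i + ∑ s, pderiv s (f i) * δ s =
        ∑ j, ((if i = j then 1 else 0) - ∑ s, pderiv s (f i) * M' s j) * f j := by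
      simp only [δ, sub_mul, Finset.sum_sub_distrib, ite_mul, one_mul, zero_mul, Finset.sum_ite_eq,
        Finset.mem_univ, if_true, mul_neg, Finset.sum_neg_distrib, Finset.mul_sum, Finset.sum_mul,
        mul_assoc]
      rw [sub_eq_add_neg]
      rw [Finset.sum_comm]
    have h3 : f i + ∑ s, pderiv s (f i) * δ s ∈ I ^ 2 := by
      rw [h2, pow_two]
      refine Ideal.sum_mem _ fun j _ => Ideal.mul_mem_mul ?_ (hfI j)
      have h4 := congrFun (congrFun hM i) j
      rw [Matrix.mul_apply, Matrix.one_apply] at h4
      change π _ = 0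
      simp only [map_sub, map_sum, map_mul, hM', apply_ite π, map_one, map_zero]
      rw [← h4]
      exact sub_self _
    change aeval (X + δ) (f i) ∈ I ^ 2
    convert add_mem h1 h3 using 1
    ring
  let g : S →ₐ[k] MvPolynomial σ k ⧸ I ^ 2 :=
    (Ideal.Quotient.liftₐ _ G hG).comp (Ideal.quotientKerAlgEquivOfSurjective hπ).symm.toAlgHom
  have hg : ∀ q, g (π q) = G q := fun q => by
    have h : (Ideal.quotientKerAlgEquivOfSurjective hπ).symm (π q) = Ideal.Quotient.mk _ q := by
      rw [AlgEquiv.symm_apply_eq]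
      rfl
    change Ideal.Quotient.liftₐ _ G hG ((Ideal.quotientKerAlgEquivOfSurjective hπ).symm (π q)) = _
    rw [h]
    rfl
  refine Algebra.FormallySmooth.of_split π g (AlgHom.ext fun x => ?_)
  obtain ⟨q, rfl⟩ := hπ x
  have h : π.comp (aeval (X + δ)) = π := by
    ext1 s
    have h0 : π (δ s) = 0 := hδ s
    simp [h0]
  rw [AlgHom.comp_apply, hg]
  exact DFunLike.congr_fun h q

/-- **Jacobian criterion**, at points -/
theorem smooth_of_points {k : Type} [Field k] [IsAlgClosed k] [Algebra k S]
    (π : MvPolynomial σ k →ₐ[k] S) (hπ : Function.Surjective π) (f : ι → MvPolynomial σ k)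
    (hf : RingHom.ker π = Ideal.span (Set.range f))
    (h : ∀ p : σ → k, (∀ i, eval p (f i) = 0) →
      LinearIndependent k fun i s => eval p (pderiv s (f i))) : Algebra.Smooth k S := by
  classical
  let J : Matrix ι σ (MvPolynomial σ k) := Matrix.of fun i s => pderiv s (f i)
  let T : Ideal (MvPolynomial σ k) :=
    { carrier := {r | ∃ M : Matrix σ ι S, J.map π * M = π r • 1}
      add_mem' := by
        rintro a b ⟨M, hM⟩ ⟨N, hN⟩
        exact ⟨M + N, by rw [Matrix.mul_add, hM, hN, map_add, add_smul]⟩
      zero_mem' := ⟨0, by simp⟩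
      smul_mem' := by
        rintro c a ⟨M, hM⟩
        exact ⟨π c • M, by rw [Matrix.mul_smul, hM, smul_eq_mul, map_mul, mul_smul]⟩ }
  have hT : T = ⊤ := by
    by_contra hT
    obtain ⟨m, hm, hle⟩ := Ideal.exists_le_maximal T hT
    obtain ⟨p, rfl⟩ := isMaximal_iff_eq_vanishingIdeal_singleton.1 hm
    have h0 : ∀ q ∈ T, eval p q = 0 := fun q hq =>
      (mem_vanishingIdeal_singleton_iff p q).1 (hle hq)
    have h1 := h p fun i => h0 _ ⟨0, by
      have : π (f i) = 0 := by
        rw [← RingHom.mem_ker, hf]
        exact Ideal.subset_span ⟨i, rfl⟩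
      simp [this]⟩
    obtain ⟨A, hA⟩ : ∃ A : Matrix σ ι k, J.map (eval p) * A = 1 := by
      have h2 : Function.Injective (J.map (eval p)).vecMulLinear :=
        Matrix.vecMul_injective_iff.2 h1
      obtain ⟨g, hg⟩ := (J.map (eval p)).vecMulLinear.exists_leftInverse_of_injective
        (LinearMap.ker_eq_bot.2 h2)
      refine ⟨LinearMap.toMatrixRight' g, Matrix.toLinearMapRight'.injective ?_⟩
      rw [Matrix.toLinearMapRight'_mul, Matrix.toLinearMapRight'_one, ← hg]
      congr 1
      exact LinearMap.toMatrixRight'.symm_apply_apply g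
    let A' : Matrix σ ι (MvPolynomial σ k) := A.map C
    have h3 : (J * A').det ∈ T := ⟨(A' * (J * A').adjugate).map π, by
      rw [← Matrix.map_mul, ← Matrix.mul_assoc, Matrix.mul_adjugate]
      ext i j
      simp [Matrix.one_apply, apply_ite π]⟩
    have h4 := h0 _ h3
    rw [RingHom.map_det, RingHom.mapMatrix_apply, Matrix.map_mul] at h4
    have h5 : A'.map (eval p) = A := by
      ext i j
      simp [A']
    rw [h5, hA, Matrix.det_one] at h4
    exact one_ne_zero h4
  obtain ⟨M, hM⟩ : (1 : MvPolynomial σ k) ∈ T := hT ▸ Submodule.mem_top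
  rw [map_one, one_smul] at hM
  exact smooth_of_jac π hπ f hf M hM



end Crest.Agent.X262.Brg.Jac
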