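import Crest.Agent.X262.Brg.Sym
import Crest.Agent.X277.Jet.Fr

-- ▼ part X262/Brg/Inj
section

/-!
# Row 262, bridge (helper19): from points to function fields

* `mem_of_points`   : if the general fibres of a rational map are orbits of finitely many
                      automorphisms, the function field of the image is the fixed field;
* `top_of_points`   : generically injective maps are birational onto the image;
* `symSq_of_points` : the last conjunct of S0400 from a map `S × S ⇢ Spec B` whose general fibres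
                      are swap orbits.
-/

set_option autoImplicit false

open MvPolynomial AlgebraicGeometry
open scoped TensorProduct
open Crest.AlgGeometry

noncomputable section

namespace Crest.Agent.X262.Brg.Inj

open Bir Brg.Cubic Brg.Sym

variable {R L : Type} [CommRing R] [Algebra ℂ R] [Field L] [Algebra ℂ L]





/-- the map to the field generated by the image -/
def res {B : Type} [CommRing B] [Algebra ℂ B] (φ : B →ₐ[ℂ] L) :
    B →ₐ[ℂ] IntermediateField.adjoin ℂ (φ.range : Set L) :=
  φ.codRestrict (IntermediateField.adjoin ℂ (φ.range : Set L)).toSubalgebra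
    fun b => IntermediateField.subset_adjoin _ _ ⟨b, rfl⟩

theorem gen_of_inj {B : Type} [CommRing B] [Algebra ℂ B] {φ : B →ₐ[ℂ] L}
    (hφ : Function.Injective φ) : Gen (res φ) := by
  refine Gen.of_inj (fun x y h => hφ (congrArg Subtype.val h)) fun x => ?_
  obtain ⟨r, hr, s, hs, e⟩ := IntermediateField.mem_adjoin_iff_div.1 x.2
  rw [Algebra.adjoin_eq] at hr hs
  obtain ⟨r, rfl⟩ := hr
  obtain ⟨s, rfl⟩ := hs
  by_cases h0 : φ s = 0
  · refine ⟨1, 0, by simp, Subtype.ext ?_⟩
    change x.1 * φ 1 = φ 0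
    rw [e]
    change φ r / φ s * _ = _
    simp [h0]
  · refine ⟨s, r, fun h => h0 (congrArg Subtype.val h), Subtype.ext ?_⟩
    change x.1 * φ s = φ r
    rw [e]
    exact div_mul_cancel₀ _ h0



end Crest.Agent.X262.Brg.Inj
end
end

-- ▼ part X262/Brg/Lines

/-!
# Row 262, bridge (helper19): the symmetric square from a generic line

* `symSq_of_lines` : the last conjunct of S0400 from the data `Lines` of the top layer.
-/

set_option autoImplicit false

open MvPolynomial AlgebraicGeometry
open Crest.AlgGeometry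
open scoped KaehlerDifferential

noncomputable section

namespace Crest.Agent.X262.Brg.Lines

open Bir Brg.Cubic Brg.Sym Inj

variable {L : Type} [Field L] [Algebra ℂ L]

theorem trdeg_of_basis {F : Type} [Field F] [Algebra ℂ F] {n : ℕ}
    (b : Module.Basis (Fin n) F Ω[F⁄ℂ]) : Algebra.trdeg ℂ F = n := by
  have := Module.Finite.of_basis b
  rw [X277.Jet.trdeg_eq, Module.finrank_eq_card_basis b, Fintype.card_fin]

/-- a field is algebraic over the fixed field of an involution -/
theorem isAlgebraic_of_fix {τ : L →ₐ[ℂ] L} (inv : ∀ x, τ (τ x) = x) {K : IntermediateField ℂ L}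
    (fix : ∀ x, τ x = x → x ∈ K) : Algebra.IsAlgebraic K L := ⟨fun x => by
  let a : K := ⟨x + τ x, fix _ (by rw [map_add, inv, add_comm])⟩
  let b : K := ⟨x * τ x, fix _ (by rw [map_mul, inv, mul_comm])⟩
  refine IsIntegral.isAlgebraic
    ⟨Polynomial.X ^ 2 - Polynomial.C a * Polynomial.X + Polynomial.C b, by monicity!, ?_⟩
  simp only [Polynomial.eval₂_add, Polynomial.eval₂_sub, Polynomial.eval₂_mul, Polynomial.eval₂_C,
    Polynomial.eval₂_X, Polynomial.eval₂_X_pow]
  change x ^ 2 - (x + τ x) * x + x * τ x = 0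
  ring⟩

theorem trdeg_of_isAlgebraic (K : IntermediateField ℂ L) [h : Algebra.IsAlgebraic K L] :
    Algebra.trdeg ℂ K = Algebra.trdeg ℂ L := by
  have h5 := trdeg_add_eq ℂ K (A := L)
  rwa [trdeg_eq_zero_iff.2 h, add_zero] at h5

theorem fr_res {B : Type} [CommRing B] [Algebra ℂ B] (φ : B →ₐ[ℂ] L) : Fr (res φ).range :=
  fr_of_adjoin (by
    refine IntermediateField.map_injective (IntermediateField.adjoin ℂ (φ.range : Set L)).val ?_
    rw [IntermediateField.adjoin_map, ← AlgHom.fieldRange_eq_map, IntermediateField.fieldRange_val]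
    congr 1
    ext x
    exact ⟨by rintro ⟨_, ⟨b, rfl⟩, rfl⟩; exact ⟨b, rfl⟩, by
      rintro ⟨b, rfl⟩; exact ⟨_, ⟨b, rfl⟩, rfl⟩⟩)

/-- a point of transcendence degree `dim B` is a generic point -/
theorem inj_of_trdeg {B : Type} [CommRing B] [Algebra ℂ B] [IsDomain B] [Algebra.FiniteType ℂ B]
    (φ : B →ₐ[ℂ] L) {d : ℕ} (hB : ringKrullDim B ≤ d)
    (h : Algebra.trdeg ℂ (IntermediateField.adjoin ℂ (φ.range : Set L)) = d) :
    Function.Injective φ := fun _ _ e => inj_of_dim _ (fr_res φ) hB h (Subtype.ext e)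

theorem adjoin_lift {σ : Type} (I : Ideal (MvPolynomial σ ℂ)) (a : σ → L)
    (on : ∀ q ∈ I, aeval a q = 0) :
    IntermediateField.adjoin ℂ ((Ideal.Quotient.liftₐ I (aeval a) on).range : Set L) =
      IntermediateField.adjoin ℂ (Set.range a) := by
  refine le_antisymm (IntermediateField.adjoin_le_iff.2 ?_)
    (IntermediateField.adjoin.mono _ _ _ ?_)
  · rintro _ ⟨b, rfl⟩
    obtain ⟨q, rfl⟩ := Ideal.Quotient.mk_surjective b
    exact IntermediateField.algebra_adjoin_le_adjoin _ _
      (by rw [Algebra.adjoin_range_eq_range_aeval]; exact ⟨q, rfl⟩)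
  · rintro _ ⟨i, rfl⟩
    exact ⟨Ideal.Quotient.mk I (X i), aeval_X a i⟩

/-- **the symmetric square from a generic line** -/
theorem symSq_of_lines {σ : Type} [Finite σ] {I : Ideal (MvPolynomial σ ℂ)}
    [IsDomain (MvPolynomial σ ℂ ⧸ I)] (hI : ringKrullDim (MvPolynomial σ ℂ ⧸ I) ≤ 4)
    {F : Type} [Field F] [Algebra ℂ F] [Algebra.EssFiniteType ℂ F]
    (b : Module.Basis (Fin 2) F Ω[F⁄ℂ]) (ι : F →ₐ[ℂ] L) (τ : L →ₐ[ℂ] L) (inv : ∀ x, τ (τ x) = x)
    (gen : IntermediateField.adjoin ℂ (Set.range ι ∪ Set.range fun x => τ (ι x)) = ⊤)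
    (dim : Algebra.trdeg ℂ L = 4) (a : σ → L) (on : ∀ q ∈ I, aeval a q = 0)
    (fix : ∀ x, τ x = x ↔ x ∈ IntermediateField.adjoin ℂ (Set.range a)) :
    SymSqOf (MvPolynomial σ ℂ ⧸ I) := by
  rw [← adjoin_lift I a on] at fix
  have := isAlgebraic_of_fix inv fun x => (fix x).1
  exact symSq_of (gen_of_inj (inj_of_trdeg _ (d := 4) hI ((trdeg_of_isAlgebraic _).trans dim)))
    (trdeg_of_basis b) dim ι τ (fun x => inv _) gen (IntermediateField.val _) fun x =>
      (fix x).trans ⟨fun h => ⟨⟨x, h⟩, rfl⟩, by rintro ⟨y, rfl⟩; exact y.2⟩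

end Crest.Agent.X262.Brg.Lines
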